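import Vale.Agent.P072.Defs

/-! # Complex balanced states: definition -/

namespace Vale.Agent.P072

variable {d : ℕ}

/-- `a` is a complex balanced state of the mass-action system with rate constants `k`: all
concentrations are positive, and at every complex the total rate of the reactions leaving it
equals the total rate of the reactions entering it. -/
def Network.ComplexBalanced (G : Network d) (k : (Fin d → ℕ) × (Fin d → ℕ) → ℝ)
    (a : Fin d → ℝ) : Prop :=
  (∀ i, 0 < a i) ∧ ∀ y ∈ G.complexes,
    ∑ r ∈ G.reactions with r.1 = y, k r * ∏ j, a j ^ r.1 j =
      ∑ r ∈ G.reactions with r.2 = y, k r * ∏ j, a j ^ r.1 j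

end Vale.Agent.P072
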