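import Vale.Agent.P072.H15.Rate

/-! # Convergence of the solutions of complex balanced systems -/

open Set Filter Topology

namespace Vale.Agent.P072.H15

variable {d : ℕ}

/-- The derivative of the Horn-Jackson function along a positive solution. -/
lemma hasDeriv_V {G : Network d} {k : (Fin d → ℕ) × (Fin d → ℕ) → ℝ} (b : Fin d → ℝ)
    {x : ℝ → Fin d → ℝ} (hx : IsGlobalSolution (G.field k) x) {t : ℝ} (ht : 0 ≤ t)
    (hpos : ∀ i, 0 < x t i) :
    HasDerivWithinAt (fun s => V b (x s)) (-D G k b (x t)) (Ici 0) t := by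
  have h1 := hasDerivWithinAt_pi.1 (hx t ht)
  have h2 : ∀ i, HasDerivWithinAt
      (fun s => x s i * (Real.log (x s i) - Real.log (b i)) - x s i + b i)
      (lr b (x t) i * G.field k (x t) i) (Ici 0) t := by
    intro i
    have h3 : HasDerivAt (fun z : ℝ => z * (Real.log z - Real.log (b i)) - z + b i)
        (Real.log (x t i) - Real.log (b i)) (x t i) := by
      have h4 := (((hasDerivAt_id (x t i)).mul
        ((Real.hasDerivAt_log (hpos i).ne').sub_const (Real.log (b i)))).sub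
          (hasDerivAt_id (x t i))).add_const (b i)
      refine h4.congr_deriv ?_
      have := (hpos i).ne'
      simp only [id]
      field_simp
      ring
    exact h3.comp_hasDerivWithinAt t (h1 i)
  have h5 := HasDerivWithinAt.fun_sum (u := Finset.univ) fun i _ => h2 i
  have h6 : -D G k b (x t) = ∑ i, lr b (x t) i * G.field k (x t) i := by
    unfold D
    rw [neg_neg]
  rw [h6]
  exact h5

/-- A differential inequality. -/
lemma decay {g g' : ℝ → ℝ} (hg : ∀ t ≥ 0, HasDerivWithinAt g (g' t) (Ici 0) t) {ρ m t₀ : ℝ}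
    (ht₀ : 0 ≤ t₀) (h : ∀ t ≥ t₀, g' t ≤ -(ρ * g t) - m * Real.exp (-(ρ * t))) {t : ℝ}
    (ht : t₀ ≤ t) :
    Real.exp (ρ * t) * g t + m * t ≤ Real.exp (ρ * t₀) * g t₀ + m * t₀ := by
  have hd : ∀ t ≥ 0, HasDerivWithinAt (fun t => Real.exp (ρ * t) * g t + m * t)
      (Real.exp (ρ * t) * (ρ * g t + g' t) + m) (Ici 0) t := by
    intro t ht
    have h1 : HasDerivAt (fun t : ℝ => Real.exp (ρ * t)) (Real.exp (ρ * t) * ρ) t := by
      have := ((hasDerivAt_id t).const_mul ρ).exp
      simpa using this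
    have h2 := (h1.hasDerivWithinAt.mul (hg t ht)).add
      (((hasDerivAt_id t).const_mul m).hasDerivWithinAt (s := Ici 0))
    refine h2.congr_deriv ?_
    ring
  have hanti : AntitoneOn (fun t => Real.exp (ρ * t) * g t + m * t) (Ici t₀) := by
    refine antitoneOn_of_deriv_nonpos (convex_Ici t₀) ?_ ?_ ?_
    · intro s hs
      exact (hd s (ht₀.trans hs)).continuousWithinAt.mono (Ici_subset_Ici.2 ht₀)
    · intro s hs
      rw [interior_Ici] at hs
      exact ((hd s (ht₀.trans hs.le)).hasDerivAt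
        (Ici_mem_nhds (ht₀.trans_lt hs))).differentiableAt.differentiableWithinAt
    · intro s hs
      rw [interior_Ici] at hs
      rw [((hd s (ht₀.trans hs.le)).hasDerivAt (Ici_mem_nhds (ht₀.trans_lt hs))).deriv]
      have h1 := h s hs.le
      have h2 : Real.exp (ρ * s) * (ρ * g s + g' s) ≤
          Real.exp (ρ * s) * (-(m * Real.exp (-(ρ * s)))) :=
        mul_le_mul_of_nonneg_left (by linarith) (Real.exp_pos _).le
      have h3 : Real.exp (ρ * s) * Real.exp (-(ρ * s)) = 1 := by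
        rw [← Real.exp_add, add_neg_cancel, Real.exp_zero]
      have h4 : Real.exp (ρ * s) * (-(m * Real.exp (-(ρ * s)))) = -m := by
        linear_combination (-m) * h3
      linarith
  exact hanti (mem_Ici.2 le_rfl) ht ht

section

variable {G : Network d} {k : (Fin d → ℕ) × (Fin d → ℕ) → ℝ}
  (hk : ∀ r ∈ G.reactions, 0 < k r) {b c : Fin d → ℝ} (h : G.ComplexBalanced k b)

include hk h in
/-- The Horn-Jackson function does not increase. -/
lemma V_antitone {x : ℝ → Fin d → ℝ} (hx : IsGlobalSolution (G.field k) x)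
    (hpos : ∀ t ≥ 0, ∀ i, 0 < x t i) {s t : ℝ} (hs : 0 ≤ s) (hst : s ≤ t) :
    V b (x t) ≤ V b (x s) := by
  have h1 := decay (g := fun t => V b (x t)) (g' := fun t => -D G k b (x t)) (ρ := 0) (m := 0)
    (fun t ht => hasDeriv_V b hx ht (hpos t ht)) hs (fun t ht => by
      have := D_nonneg hk h (hpos t (hs.trans ht))
      simpa using this) hst
  simpa using h1

/-- Exponential decay of the Horn-Jackson function while the solution is in a compact box. -/
lemma V_decay {κ B ρ : ℝ}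
    (hρ : ∀ x : Fin d → ℝ, (∀ i, κ ≤ x i ∧ x i ≤ B) → x - b ∈ G.stoich →
      ρ * V b x ≤ D G k b x)
    {x : ℝ → Fin d → ℝ} (hx : IsGlobalSolution (G.field k) x)
    (hpos : ∀ t ≥ 0, ∀ i, 0 < x t i) {t₀ : ℝ} (ht₀ : 0 ≤ t₀)
    (hbox : ∀ t ≥ t₀, (∀ i, κ ≤ x t i ∧ x t i ≤ B) ∧ x t - b ∈ G.stoich) {t : ℝ} (ht : t₀ ≤ t) :
    V b (x t) ≤ Real.exp (-(ρ * (t - t₀))) * V b (x t₀) := by
  have h1 := decay (g := fun t => V b (x t)) (g' := fun t => -D G k b (x t)) (ρ := ρ) (m := 0)
    (fun t ht => hasDeriv_V b hx ht (hpos t ht)) ht₀ (fun t ht => by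
      have := hρ (x t) (hbox t ht).1 (hbox t ht).2
      rw [zero_mul, sub_zero]
      linarith) ht
  rw [zero_mul, zero_mul, add_zero, add_zero] at h1
  have h2 : Real.exp (-(ρ * t)) * (Real.exp (ρ * t) * V b (x t)) ≤
      Real.exp (-(ρ * t)) * (Real.exp (ρ * t₀) * V b (x t₀)) :=
    mul_le_mul_of_nonneg_left h1 (Real.exp_pos _).le
  rw [← mul_assoc, ← Real.exp_add, neg_add_cancel, Real.exp_zero, one_mul, ← mul_assoc,
    ← Real.exp_add] at h2
  refine h2.trans (le_of_eq ?_)
  congr 2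
  ring

end

/-- Points of a compact subset of a positive class are in a common box. -/
lemma exists_box {K : Set (Fin d → ℝ)} (hK : IsCompact K) (hpos : ∀ x ∈ K, ∀ i, 0 < x i) :
    ∃ κ > 0, ∃ B, ∀ x ∈ K, ∀ i, κ ≤ x i ∧ x i ≤ B := by
  have h1 : ∀ i : Fin d, ∃ κ > 0, ∃ B, ∀ x ∈ K, κ ≤ x i ∧ x i ≤ B := by
    intro i
    rcases K.eq_empty_or_nonempty with rfl | hne
    · exact ⟨1, one_pos, 0, fun x hx => absurd hx (notMem_empty _)⟩
    · obtain ⟨u, hu, hmin⟩ := hK.exists_isMinOn hne ((continuous_apply i).continuousOn)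
      obtain ⟨w, hw, hmax⟩ := hK.exists_isMaxOn hne ((continuous_apply i).continuousOn)
      exact ⟨u i, hpos u hu i, w i, fun x hx => ⟨hmin hx, hmax hx⟩⟩
  choose κ hκ B hB using h1
  by_cases hd : Nonempty (Fin d)
  · obtain ⟨i0, -, hi0⟩ := Finset.exists_min_image Finset.univ κ Finset.univ_nonempty
    obtain ⟨j0, -, hj0⟩ := Finset.exists_max_image Finset.univ B Finset.univ_nonempty
    exact ⟨κ i0, hκ i0, B j0, fun x hx i => ⟨(hi0 i (Finset.mem_univ i)).trans (hB i x hx).1,
      (hB i x hx).2.trans (hj0 i (Finset.mem_univ i))⟩⟩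
  · exact ⟨1, one_pos, 0, fun x hx i => absurd ⟨i⟩ hd⟩

lemma sub_mem_stoich {G : Network d} {k : (Fin d → ℕ) × (Fin d → ℕ) → ℝ} {x : ℝ → Fin d → ℝ}
    (hx : IsGlobalSolution (G.field k) x) (hpos : ∀ t ≥ 0, ∀ i, 0 < x t i) {t : ℝ}
    (ht : 0 ≤ t) : x t - x 0 ∈ G.stoich :=
  (hx.seg le_rfl hpos : Seg (G.field k) x 0 t).sub_mem ht

lemma field_eq_zero {G : Network d} {k : (Fin d → ℕ) × (Fin d → ℕ) → ℝ} {b : Fin d → ℝ}
    (h : G.ComplexBalanced k b) : G.field k b = 0 := by
  funext i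
  have h1 := balance h (fun y => (y i : ℝ))
  unfold Network.field
  simp only [Finset.sum_apply, Pi.smul_apply, smul_eq_mul, Pi.zero_apply]
  unfold flux at h1
  simp only [mul_sub]
  rw [Finset.sum_sub_distrib, h1, sub_self]

/-- Existence of a complex balanced state in every positive class. -/
theorem exists_balanced {G : Network d} {k : (Fin d → ℕ) × (Fin d → ℕ) → ℝ}
    (hk : ∀ r ∈ G.reactions, 0 < k r) {a c : Fin d → ℝ} (h : G.ComplexBalanced k a)
    (hc : ∀ i, 0 < c i) : ∃ b ∈ G.posClass c, G.ComplexBalanced k b := by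
  obtain ⟨hex, -, hpos, K, hKP, hK, habs⟩ :=
    permanence G (weaklyReversible hk h) k hk c hc
  have hcP : c ∈ G.posClass c := ⟨by rw [sub_self]; exact G.stoich.zero_mem, hc⟩
  obtain ⟨x, hx, hx0⟩ := hex c hcP
  rw [← hx0] at hcP
  have hxpos := hpos x hx (by rw [hx0] at hcP ⊢; exact hcP)
  obtain ⟨t₁, ht₁⟩ := habs x hx (by rw [hx0] at hcP ⊢; exact hcP)
  set t₀ := max t₁ 0
  have ht₀ : 0 ≤ t₀ := le_max_right _ _
  have hin : ∀ t ≥ t₀, x t ∈ K := fun t ht => ht₁ t ((le_max_left _ _).trans ht)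
  -- a zero of the dissipation
  have hz : ∃ y ∈ K, D G k a y = 0 := by
    have hcont : ContinuousOn (fun y => D G k a y) K := by
      unfold D lr
      refine ContinuousOn.neg (continuousOn_finsetSum _ fun i _ => ?_)
      refine ContinuousOn.mul ?_ ?_
      · refine ContinuousOn.sub ?_ continuousOn_const
        exact ContinuousOn.log (continuous_apply i).continuousOn
          fun y hy => ((hKP hy).2 i).ne'
      · exact ((continuous_apply i).comp (field_contDiff G k).continuous).continuousOn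
    obtain ⟨y, hy, hmin⟩ := hK.exists_isMinOn ⟨x t₀, hin t₀ le_rfl⟩ hcont
    refine ⟨y, hy, ?_⟩
    by_contra hne
    have hm : 0 < D G k a y :=
      lt_of_le_of_ne (D_nonneg hk h (hKP hy).2) (Ne.symm hne)
    set m := D G k a y
    set T := t₀ + (V a (x t₀) + 1) / m with hT
    have hV0 : 0 ≤ V a (x t₀) := V_nonneg h.1 (hxpos t₀ ht₀)
    have hTge : t₀ ≤ T := by
      rw [hT]
      have : 0 ≤ (V a (x t₀) + 1) / m := by positivity
      linarith
    have h1 := decay (g := fun t => V a (x t)) (g' := fun t => -D G k a (x t)) (ρ := 0) (m := m)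
      (fun t ht => hasDeriv_V a hx ht (hxpos t ht)) ht₀ (fun t ht => by
        have : m ≤ D G k a (x t) := hmin (hin t ht)
        simp only [zero_mul, neg_zero, Real.exp_zero, mul_one, zero_sub]
        linarith) hTge
    simp only [zero_mul, Real.exp_zero, one_mul] at h1
    have h2 : 0 ≤ V a (x T) := V_nonneg h.1 (hxpos T (ht₀.trans hTge))
    have h3 : m * T = m * t₀ + (V a (x t₀) + 1) := by
      rw [hT, mul_add, mul_div_cancel₀ _ hm.ne']
    linarith
  obtain ⟨y, hy, hy0⟩ := hz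
  exact ⟨y, hKP hy, complexBalanced_of_dot h (hKP hy).2
    (dot_eq_of_D_eq_zero hk h (hKP hy).2 hy0)⟩

/-- Uniqueness of the positive equilibrium in the class of a complex balanced state. -/
theorem unique_eq {G : Network d} {k : (Fin d → ℕ) × (Fin d → ℕ) → ℝ}
    (hk : ∀ r ∈ G.reactions, 0 < k r) {b x : Fin d → ℝ} (h : G.ComplexBalanced k b)
    (hx : ∀ i, 0 < x i) (hxb : x - b ∈ G.stoich) (h0 : G.field k x = 0) : x = b := by
  apply eq_of_V_nonpos h.1 hx
  have hD : D G k b x = 0 := by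
    unfold D
    rw [h0]
    simp
  obtain ⟨κ, hκ, B, hbox⟩ := exists_box (isCompact_singleton (x := x)) (fun y hy => by
    rw [mem_singleton_iff.1 hy]
    exact hx)
  obtain ⟨ρ, hρ, hge⟩ := D_ge hk h (B := B) hκ
  have h1 := hge x (hbox x rfl) hxb
  rw [hD] at h1
  nlinarith

end Vale.Agent.P072.H15
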