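import Vale.Agent.P072.Bdl.B1
import Vale.Agent.P072.H15.Defs

/-! # The Horn-Jackson function of a complex balanced system -/

open Set Filter Topology

namespace Vale.Agent.P072.H15

variable {d : ℕ}

/-- The pairing of a complex with a vector. -/
def dot (y : Fin d → ℕ) (μ : Fin d → ℝ) : ℝ := ∑ i, (y i : ℝ) * μ i

/-- `log x - log b`. -/
noncomputable def lr (b x : Fin d → ℝ) : Fin d → ℝ := fun i => Real.log (x i) - Real.log (b i)

/-- The rate of a reaction. -/
noncomputable def flux (k : (Fin d → ℕ) × (Fin d → ℕ) → ℝ) (r : (Fin d → ℕ) × (Fin d → ℕ))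
    (x : Fin d → ℝ) : ℝ := k r * ∏ j, x j ^ r.1 j

lemma flux_pos {k : (Fin d → ℕ) × (Fin d → ℕ) → ℝ} {r : (Fin d → ℕ) × (Fin d → ℕ)}
    (hk : 0 < k r) {x : Fin d → ℝ} (hx : ∀ i, 0 < x i) : 0 < flux k r x :=
  mul_pos hk (Finset.prod_pos fun j _ => pow_pos (hx j) _)

lemma flux_eq (k : (Fin d → ℕ) × (Fin d → ℕ) → ℝ) (r : (Fin d → ℕ) × (Fin d → ℕ))
    {b x : Fin d → ℝ} (hb : ∀ i, 0 < b i) (hx : ∀ i, 0 < x i) :
    flux k r x = flux k r b * Real.exp (dot r.1 (lr b x)) := by
  unfold flux dot lr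
  rw [mul_assoc, Real.exp_sum, ← Finset.prod_mul_distrib]
  congr 1
  refine Finset.prod_congr rfl fun j _ => ?_
  rw [Real.exp_nat_mul, ← mul_pow, Real.exp_sub, Real.exp_log (hx j), Real.exp_log (hb j)]
  congr 1
  have := (hb j).ne'
  field_simp

/-- Summation against a function of the complexes. -/
lemma balance {G : Network d} {k : (Fin d → ℕ) × (Fin d → ℕ) → ℝ} {a : Fin d → ℝ}
    (h : G.ComplexBalanced k a) (φ : (Fin d → ℕ) → ℝ) :
    ∑ r ∈ G.reactions, flux k r a * φ r.2 = ∑ r ∈ G.reactions, flux k r a * φ r.1 := by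
  have e1 := Finset.sum_fiberwise_of_maps_to G.target_mem (fun r => flux k r a * φ r.2)
  have e2 := Finset.sum_fiberwise_of_maps_to G.source_mem (fun r => flux k r a * φ r.1)
  rw [← e1, ← e2]
  refine Finset.sum_congr rfl fun y hy => ?_
  have h1 : ∑ r ∈ G.reactions with r.2 = y, flux k r a * φ r.2 =
      (∑ r ∈ G.reactions with r.2 = y, flux k r a) * φ y := by
    rw [Finset.sum_mul]
    refine Finset.sum_congr rfl fun r hr => ?_
    rw [(Finset.mem_filter.1 hr).2]
  have h2 : ∑ r ∈ G.reactions with r.1 = y, flux k r a * φ r.1 =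
      (∑ r ∈ G.reactions with r.1 = y, flux k r a) * φ y := by
    rw [Finset.sum_mul]
    refine Finset.sum_congr rfl fun r hr => ?_
    rw [(Finset.mem_filter.1 hr).2]
  rw [h1, h2]
  congr 1
  exact (h.2 y hy).symm

/-- A system with a complex balanced state is weakly reversible. -/
theorem weaklyReversible {G : Network d} {k : (Fin d → ℕ) × (Fin d → ℕ) → ℝ}
    (hk : ∀ r ∈ G.reactions, 0 < k r) {a : Fin d → ℝ} (h : G.ComplexBalanced k a) :
    G.WeaklyReversible := by
  classical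
  intro r hr
  by_contra hcon
  set U : Set (Fin d → ℕ) :=
    {z | Relation.ReflTransGen (fun y z => (y, z) ∈ G.reactions) r.2 z} with hU
  have hb := balance h (fun z => if z ∈ U then 1 else 0)
  have h1 : ∀ s ∈ G.reactions, flux k s a * (if s.1 ∈ U then 1 else 0) ≤
      flux k s a * (if s.2 ∈ U then 1 else 0) := by
    intro s hs
    have hf := (flux_pos (hk s hs) h.1).le
    by_cases h2 : s.1 ∈ U
    · have h3 : s.2 ∈ U := Relation.ReflTransGen.tail h2 hs
      rw [if_pos h2, if_pos h3]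
    · rw [if_neg h2, mul_zero]
      split_ifs
      · simpa using hf
      · simp
  have h2 : flux k r a * (if r.1 ∈ U then 1 else 0) < flux k r a * (if r.2 ∈ U then 1 else 0) := by
    have h3 : r.2 ∈ U := Relation.ReflTransGen.refl
    have h4 : r.1 ∉ U := hcon
    rw [if_neg h4, if_pos h3]
    simpa using flux_pos (hk r hr) h.1
  have := Finset.sum_lt_sum h1 ⟨r, hr, h2⟩
  linarith

/-- The Horn-Jackson function. -/
noncomputable def V (b x : Fin d → ℝ) : ℝ :=
  ∑ i, (x i * (Real.log (x i) - Real.log (b i)) - x i + b i)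

/-- The dissipation. -/
noncomputable def D (G : Network d) (k : (Fin d → ℕ) × (Fin d → ℕ) → ℝ) (b x : Fin d → ℝ) : ℝ :=
  -∑ i, lr b x i * G.field k x i

lemma D_eq (G : Network d) (k : (Fin d → ℕ) × (Fin d → ℕ) → ℝ) {b x : Fin d → ℝ} :
    D G k b x = -∑ r ∈ G.reactions, flux k r x * (dot r.2 (lr b x) - dot r.1 (lr b x)) := by
  unfold D Network.field flux dot
  congr 1
  simp only [Finset.sum_apply, Pi.smul_apply, smul_eq_mul]
  simp only [Finset.mul_sum]
  rw [Finset.sum_comm]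
  refine Finset.sum_congr rfl fun r _ => ?_
  rw [← Finset.sum_sub_distrib, Finset.mul_sum]
  refine Finset.sum_congr rfl fun i _ => ?_
  ring

/-- `exp s' - exp s - exp s (s' - s)` is at least `(exp (s' / 2) - exp (s / 2))²`. -/
lemma exp_gap (s s' : ℝ) :
    (Real.exp (s' / 2) - Real.exp (s / 2)) ^ 2 ≤
      Real.exp s' - Real.exp s - Real.exp s * (s' - s) := by
  have h1 : Real.exp s' = Real.exp (s' / 2) * Real.exp (s' / 2) := by
    rw [← Real.exp_add]
    ring_nf
  have h2 : Real.exp s = Real.exp (s / 2) * Real.exp (s / 2) := by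
    rw [← Real.exp_add]
    ring_nf
  have h3 : (s' - s) / 2 + 1 ≤ Real.exp ((s' - s) / 2) := Real.add_one_le_exp _
  have h4 : Real.exp (s / 2) * Real.exp ((s' - s) / 2) = Real.exp (s' / 2) := by
    rw [← Real.exp_add]
    ring_nf
  have h5 : Real.exp s * ((s' - s) / 2 + 1) ≤ Real.exp (s / 2) * Real.exp (s' / 2) := by
    rw [h2, mul_assoc, ← h4]
    have := Real.exp_pos (s / 2)
    gcongr
  rw [h1]
  nlinarith

lemma D_gap {G : Network d} {k : (Fin d → ℕ) × (Fin d → ℕ) → ℝ}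
    (hk : ∀ r ∈ G.reactions, 0 < k r) {b x : Fin d → ℝ} (h : G.ComplexBalanced k b)
    (hx : ∀ i, 0 < x i) :
    ∑ r ∈ G.reactions, flux k r b *
      (Real.exp (dot r.2 (lr b x) / 2) - Real.exp (dot r.1 (lr b x) / 2)) ^ 2 ≤ D G k b x := by
  have hb := balance h (fun y => Real.exp (dot y (lr b x)))
  have h1 : D G k b x = ∑ r ∈ G.reactions, flux k r b * (Real.exp (dot r.2 (lr b x)) -
      Real.exp (dot r.1 (lr b x)) -
        Real.exp (dot r.1 (lr b x)) * (dot r.2 (lr b x) - dot r.1 (lr b x))) := by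
    rw [D_eq]
    have h2 : ∀ r ∈ G.reactions, flux k r x * (dot r.2 (lr b x) - dot r.1 (lr b x)) =
        flux k r b * Real.exp (dot r.1 (lr b x)) * (dot r.2 (lr b x) - dot r.1 (lr b x)) :=
      fun r _ => by rw [flux_eq k r h.1 hx]
    rw [Finset.sum_congr rfl h2]
    have h3 : ∑ r ∈ G.reactions, flux k r b * (Real.exp (dot r.2 (lr b x)) -
      Real.exp (dot r.1 (lr b x)) -
        Real.exp (dot r.1 (lr b x)) * (dot r.2 (lr b x) - dot r.1 (lr b x))) =
      (∑ r ∈ G.reactions, flux k r b * Real.exp (dot r.2 (lr b x)) -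
        ∑ r ∈ G.reactions, flux k r b * Real.exp (dot r.1 (lr b x))) -
      ∑ r ∈ G.reactions, flux k r b * Real.exp (dot r.1 (lr b x)) *
        (dot r.2 (lr b x) - dot r.1 (lr b x)) := by
      rw [← Finset.sum_sub_distrib, ← Finset.sum_sub_distrib]
      refine Finset.sum_congr rfl fun r _ => ?_
      ring
    rw [h3, hb, sub_self, zero_sub]
  rw [h1]
  refine Finset.sum_le_sum fun r hr => ?_
  exact mul_le_mul_of_nonneg_left (exp_gap _ _) (flux_pos (hk r hr) h.1).le

lemma D_nonneg {G : Network d} {k : (Fin d → ℕ) × (Fin d → ℕ) → ℝ}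
    (hk : ∀ r ∈ G.reactions, 0 < k r) {b x : Fin d → ℝ} (h : G.ComplexBalanced k b)
    (hx : ∀ i, 0 < x i) : 0 ≤ D G k b x :=
  (Finset.sum_nonneg fun r hr => mul_nonneg (flux_pos (hk r hr) h.1).le (sq_nonneg _)).trans
    (D_gap hk h hx)

lemma dot_eq_of_D_eq_zero {G : Network d} {k : (Fin d → ℕ) × (Fin d → ℕ) → ℝ}
    (hk : ∀ r ∈ G.reactions, 0 < k r) {b x : Fin d → ℝ} (h : G.ComplexBalanced k b)
    (hx : ∀ i, 0 < x i) (h0 : D G k b x = 0) :
    ∀ r ∈ G.reactions, dot r.2 (lr b x) = dot r.1 (lr b x) := by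
  intro r hr
  have h1 := D_gap hk h hx
  rw [h0] at h1
  have h2 : ∀ s ∈ G.reactions, 0 ≤ flux k s b *
      (Real.exp (dot s.2 (lr b x) / 2) - Real.exp (dot s.1 (lr b x) / 2)) ^ 2 :=
    fun s hs => mul_nonneg (flux_pos (hk s hs) h.1).le (sq_nonneg _)
  have h3 := (Finset.sum_eq_zero_iff_of_nonneg h2).1 (le_antisymm h1 (Finset.sum_nonneg h2)) r hr
  have h4 := (flux_pos (hk r hr) h.1).ne'
  have h5 : Real.exp (dot r.2 (lr b x) / 2) - Real.exp (dot r.1 (lr b x) / 2) = 0 := by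
    rcases mul_eq_zero.1 h3 with h6 | h6
    · exact absurd h6 h4
    · exact pow_eq_zero_iff (two_ne_zero) |>.1 h6
  have h6 := Real.exp_injective (sub_eq_zero.1 h5)
  linarith

/-- If the logarithmic ratio is orthogonal to the reaction vectors, complex balance is
inherited. -/
lemma complexBalanced_of_dot {G : Network d} {k : (Fin d → ℕ) × (Fin d → ℕ) → ℝ}
    {b x : Fin d → ℝ} (h : G.ComplexBalanced k b) (hx : ∀ i, 0 < x i)
    (h0 : ∀ r ∈ G.reactions, dot r.2 (lr b x) = dot r.1 (lr b x)) :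
    G.ComplexBalanced k x := by
  refine ⟨hx, fun y hy => ?_⟩
  have h1 : ∑ r ∈ G.reactions with r.1 = y, flux k r x =
      (∑ r ∈ G.reactions with r.1 = y, flux k r b) * Real.exp (dot y (lr b x)) := by
    rw [Finset.sum_mul]
    refine Finset.sum_congr rfl fun r hr => ?_
    rw [flux_eq k r h.1 hx, (Finset.mem_filter.1 hr).2]
  have h2 : ∑ r ∈ G.reactions with r.2 = y, flux k r x =
      (∑ r ∈ G.reactions with r.2 = y, flux k r b) * Real.exp (dot y (lr b x)) := by
    rw [Finset.sum_mul]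
    refine Finset.sum_congr rfl fun r hr => ?_
    rw [flux_eq k r h.1 hx, ← h0 r (Finset.mem_filter.1 hr).1, (Finset.mem_filter.1 hr).2]
  have h3 := h.2 y hy
  unfold flux at h1 h2
  rw [h1, h2, h3]

end Vale.Agent.P072.H15
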