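import Vale.Agent.P072.H15.Dyn

/-! # The global attractor conjecture -/

open Set Filter Topology

namespace Vale.Agent.P072.H15

variable {d : ℕ}

/-- Sublevel sets of the Horn-Jackson function are bounded. -/
lemma le_of_V_le {b x : Fin d → ℝ} (hb : ∀ i, 0 < b i) (hx : ∀ i, 0 < x i) {v : ℝ}
    (hv : V b x ≤ v) (i : Fin d) : x i ≤ 2 * b i + 2 * v := by
  have h1 := (h_lower (hx i) (hb i)).trans ((term_le_V hb hx i).trans hv)
  have h2 := Real.sq_sqrt (hx i).le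
  have h3 := Real.sq_sqrt (hb i).le
  nlinarith [sq_nonneg (Real.sqrt (x i) - 2 * Real.sqrt (b i))]

/-- Small sublevel sets of the Horn-Jackson function stay away from the boundary. -/
lemma ge_of_V_le {b x : Fin d → ℝ} (hb : ∀ i, 0 < b i) (hx : ∀ i, 0 < x i) {v : ℝ}
    (hv : V b x ≤ v) (hvb : ∀ i, 4 * v ≤ b i) (i : Fin d) : b i / 4 ≤ x i := by
  have h1 := (h_lower (hx i) (hb i)).trans ((term_le_V hb hx i).trans hv)
  have h2 := Real.sq_sqrt (hx i).le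
  have h3 := Real.sq_sqrt (hb i).le
  have hx' := Real.sqrt_pos.2 (hx i)
  have hb' := Real.sqrt_pos.2 (hb i)
  have h4 : (Real.sqrt (b i) - Real.sqrt (x i)) ^ 2 ≤ (Real.sqrt (b i) / 2) ^ 2 := by
    have := hvb i
    nlinarith
  have h5 : Real.sqrt (b i) - Real.sqrt (x i) ≤ Real.sqrt (b i) / 2 :=
    (abs_le_of_sq_le_sq' h4 (by positivity)).2
  have h6 : Real.sqrt (b i) / 2 ≤ Real.sqrt (x i) := by linarith
  nlinarith

section

variable {G : Network d} {k : (Fin d → ℕ) × (Fin d → ℕ) → ℝ}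
  (hk : ∀ r ∈ G.reactions, 0 < k r) {b : Fin d → ℝ} (h : G.ComplexBalanced k b)

include hk h

/-- A box for all the solutions which start in a compact part of the positive class. -/
lemma uniform_box {Q : Set (Fin d → ℝ)} (hQ : IsCompact Q) (hQpos : ∀ x ∈ Q, ∀ i, 0 < x i) :
    ∃ κ > 0, ∃ B, 0 < B ∧ ∃ v, 0 ≤ v ∧ ∀ x, IsGlobalSolution (G.field k) x → x 0 ∈ Q →
      (∀ t ≥ 0, ∀ i, 0 < x t i) →
      V b (x 0) ≤ v ∧ ∀ t ≥ 0, ∀ i, κ ≤ x t i ∧ x t i ≤ B := by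
  obtain ⟨ε₀, hε₀, B₀, hbox₀⟩ := exists_box hQ hQpos
  set v : ℝ := ∑ i, ((|B₀| + b i) ^ 2 / b i) with hv
  have hv0 : 0 ≤ v := Finset.sum_nonneg fun i _ => div_nonneg (sq_nonneg _) (h.1 i).le
  set B : ℝ := 2 * ∑ i, b i + 2 * v + 1 with hB
  have hbs : 0 ≤ ∑ i, b i := Finset.sum_nonneg fun i _ => (h.1 i).le
  have hB0 : 0 < B := by
    rw [hB]
    linarith
  have h1 : ∀ i : Fin d, ∃ κ > 0, ∀ (x : ℝ → Fin d → ℝ) (t : ℝ), 0 ≤ t →
      Seg (G.field k) x 0 t → (∀ i, ε₀ ≤ x 0 i) → (∀ r ∈ Set.Icc 0 t, ∀ i, x r i ≤ B) →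
      κ ≤ x t i := by
    intro i
    obtain ⟨κ, hκ, hlow⟩ := apriori_low G (weaklyReversible hk h) k hk B ε₀ hε₀ _ {i}
      (Finset.singleton_nonempty i) (Nat.lt_succ_self _)
    refine ⟨κ, hκ, fun x t ht hx hx0 hxB => ?_⟩
    obtain ⟨j, hj, hj'⟩ := hlow x t ht hx hx0 hxB
    rw [Finset.mem_singleton] at hj
    rw [hj] at hj'
    exact hj'
  choose κf hκf hκ using h1
  obtain ⟨κ, hκ0, hκle⟩ := exists_pos_le κf hκf
  refine ⟨κ, hκ0, B, hB0, v, hv0, fun x hx hx0 hpos => ?_⟩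
  have hV0 : V b (x 0) ≤ v := by
    refine (V_upper h.1 (hQpos _ hx0)).trans (Finset.sum_le_sum fun i _ => ?_)
    have h2 := hbox₀ _ hx0 i
    have h3 := (h.1 i)
    have h4 : |x 0 i - b i| ≤ |B₀| + b i := by
      rw [abs_le]
      have := le_abs_self B₀
      constructor <;> linarith [hQpos _ hx0 i, abs_nonneg B₀]
    have h5 : (x 0 i - b i) ^ 2 ≤ (|B₀| + b i) ^ 2 := by
      rw [← sq_abs (x 0 i - b i)]
      gcongr
    gcongr
  have hup : ∀ t ≥ 0, ∀ i, x t i ≤ B := by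
    intro t ht i
    have h2 := le_of_V_le h.1 (hpos t ht) ((V_antitone hk h hx hpos le_rfl ht).trans hV0) i
    have h3 := Finset.single_le_sum (f := b) (fun j _ => (h.1 j).le) (Finset.mem_univ i)
    rw [hB]
    linarith
  refine ⟨hV0, fun t ht i => ⟨?_, hup t ht i⟩⟩
  exact (hκle i).trans (hκ i x t ht (hx.seg le_rfl hpos) (fun j => (hbox₀ _ hx0 j).1)
    (fun r hr j => hup r hr.1 j))

/-- Exponential convergence with a uniform rate, uniformly for initial states in compact sets. -/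
theorem exp_convergence {c : Fin d → ℝ} (hb : b ∈ G.posClass c) (hc : ∀ i, 0 < c i) :
    ∃ ρ > 0, ∀ Q ⊆ G.posClass c, IsCompact Q → ∃ C, ∀ x, IsGlobalSolution (G.field k) x →
      x 0 ∈ Q → ∀ t ≥ 0, ‖x t - b‖ ≤ C * Real.exp (-(ρ * t)) * ‖x 0 - b‖ := by
  obtain ⟨-, -, hposall, -⟩ := permanence G (weaklyReversible hk h) k hk c hc
  -- the rate near the equilibrium
  obtain ⟨v₀, hv₀, hv₀b⟩ : ∃ v₀ > 0, ∀ i, 4 * v₀ ≤ b i := by
    obtain ⟨m, hm, hle⟩ := exists_pos_le b h.1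
    exact ⟨m / 4, by positivity, fun i => by linarith [hle i]⟩
  obtain ⟨m, hm, hle⟩ := exists_pos_le b h.1
  obtain ⟨ρ, hρ, hge⟩ := D_ge hk h (κ := m / 4) (B := 2 * ∑ i, b i + 2 * v₀) (by positivity)
  refine ⟨ρ / 2, by positivity, fun Q hQP hQ => ?_⟩
  obtain ⟨κ, hκ, B, hB, v, hv, hbox⟩ := uniform_box hk h hQ fun x hx => (hQP hx).2
  obtain ⟨ρ₁, hρ₁, hge₁⟩ := D_ge hk h (κ := κ) (B := B) hκ
  -- the time after which all solutions are near the equilibrium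
  obtain ⟨T, hT, hTv⟩ : ∃ T ≥ 0, Real.exp (-(ρ₁ * T)) * v ≤ v₀ := by
    refine ⟨v / (v₀ * ρ₁), by positivity, ?_⟩
    have h1 : ρ₁ * (v / (v₀ * ρ₁)) = v / v₀ := by
      field_simp
    rw [h1]
    have h2 : v / v₀ + 1 ≤ Real.exp (v / v₀) := Real.add_one_le_exp _
    have h3 : Real.exp (-(v / v₀)) * Real.exp (v / v₀) = 1 := by
      rw [← Real.exp_add, neg_add_cancel, Real.exp_zero]
    have h4 : v ≤ v₀ * Real.exp (v / v₀) := by
      have := mul_le_mul_of_nonneg_left h2 hv₀.le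
      have h5 : v₀ * (v / v₀ + 1) = v + v₀ := by field_simp
      linarith
    calc Real.exp (-(v / v₀)) * v ≤ Real.exp (-(v / v₀)) * (v₀ * Real.exp (v / v₀)) := by
          gcongr
      _ = v₀ * (Real.exp (-(v / v₀)) * Real.exp (v / v₀)) := by ring
      _ = v₀ := by rw [h3, mul_one]
  set A : ℝ := 2 * (B + ∑ i, b i) with hA
  have hbs : 0 ≤ ∑ i, b i := Finset.sum_nonneg fun i _ => (h.1 i).le
  have hA0 : 0 ≤ A := by rw [hA]; linarith
  set W : ℝ := ∑ i, 1 / b i with hW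
  have hW0 : 0 ≤ W := Finset.sum_nonneg fun i _ => (one_div_pos.2 (h.1 i)).le
  refine ⟨Real.sqrt (A * Real.exp (ρ * T) * W), fun x hx hx0 t ht => ?_⟩
  have hpos := hposall x hx (hQP hx0)
  obtain ⟨hV0, hxbox⟩ := hbox x hx hx0 hpos
  have hcls : ∀ t ≥ 0, x t - b ∈ G.stoich := by
    intro t ht
    have h1 := sub_mem_stoich hx hpos ht
    have h2 := (hQP hx0).1
    have h3 := hb.1
    have h4 : x t - b = (x t - x 0) + ((x 0 - c) - (b - c)) := by abel
    rw [h4]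
    exact G.stoich.add_mem h1 (G.stoich.sub_mem h2 h3)
  have hVT : V b (x T) ≤ v₀ := by
    have h1 := V_decay hge₁ hx hpos le_rfl (fun t ht => ⟨hxbox t ht, hcls t ht⟩) hT
    rw [sub_zero] at h1
    refine h1.trans (le_trans ?_ hTv)
    gcongr
  have hnear : ∀ t ≥ T, (∀ i, m / 4 ≤ x t i ∧ x t i ≤ 2 * ∑ i, b i + 2 * v₀) ∧
      x t - b ∈ G.stoich := by
    intro t ht
    have ht0 := hT.trans ht
    have h1 := (V_antitone hk h hx hpos hT ht).trans hVT
    refine ⟨fun i => ⟨?_, ?_⟩, hcls t ht0⟩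
    · have := ge_of_V_le h.1 (hpos t ht0) h1 hv₀b i
      linarith [hle i]
    · have h2 := le_of_V_le h.1 (hpos t ht0) h1 i
      have h3 := Finset.single_le_sum (f := b) (fun j _ => (h.1 j).le) (Finset.mem_univ i)
      linarith
  have hVt : V b (x t) ≤ Real.exp (ρ * T) * Real.exp (-(ρ * t)) * V b (x 0) := by
    have hVn : 0 ≤ V b (x 0) := V_nonneg h.1 (hpos 0 le_rfl)
    rw [← Real.exp_add]
    rcases le_total T t with hTt | hTt
    · have h1 := V_decay hge hx hpos hT hnear hTt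
      have h2 := V_antitone hk h hx hpos le_rfl hT
      refine h1.trans ?_
      have h3 : -(ρ * (t - T)) = ρ * T + -(ρ * t) := by ring
      rw [h3]
      gcongr
    · have h2 := V_antitone hk h hx hpos le_rfl ht
      refine h2.trans ?_
      have h3 : 1 ≤ Real.exp (ρ * T + -(ρ * t)) := by
        apply Real.one_le_exp
        nlinarith
      nlinarith
  have hV0n : V b (x 0) ≤ W * ‖x 0 - b‖ ^ 2 := by
    refine (V_upper h.1 (hpos 0 le_rfl)).trans ?_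
    rw [hW, Finset.sum_mul]
    refine Finset.sum_le_sum fun i _ => ?_
    have h1 := norm_le_pi_norm (x 0 - b) i
    rw [Pi.sub_apply, Real.norm_eq_abs] at h1
    have h2 : (x 0 i - b i) ^ 2 ≤ ‖x 0 - b‖ ^ 2 := by
      rw [← sq_abs (x 0 i - b i)]
      gcongr
    have h3 := (one_div_pos.2 (h.1 i)).le
    calc (x 0 i - b i) ^ 2 / b i = 1 / b i * (x 0 i - b i) ^ 2 := by ring
      _ ≤ _ := by gcongr
  have hfin := norm_sq_le_V h.1 (hpos t ht) (B := B + ∑ i, b i) (fun i => by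
    have h2 := (hxbox t ht i).2
    have h3 := Finset.single_le_sum (f := b) (fun j _ => (h.1 j).le) (Finset.mem_univ i)
    linarith)
  refine hfin.trans ?_
  have h7 : Real.sqrt (A * Real.exp (ρ * T) * W) * Real.exp (-(ρ / 2 * t)) * ‖x 0 - b‖ =
      Real.sqrt (A * Real.exp (ρ * T) * W * Real.exp (-(ρ * t)) * ‖x 0 - b‖ ^ 2) := by
    have e1 : Real.exp (-(ρ / 2 * t)) = Real.sqrt (Real.exp (-(ρ * t))) := by
      rw [← Real.exp_half]
      congr 1
      ring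
    have hE : 0 ≤ A * Real.exp (ρ * T) * W := by positivity
    have hE' : 0 ≤ A * Real.exp (ρ * T) * W * Real.exp (-(ρ * t)) := by positivity
    have e2 := Real.sqrt_mul hE' (‖x 0 - b‖ ^ 2)
    have e3 := Real.sqrt_mul hE (Real.exp (-(ρ * t)))
    rw [e2, e3, Real.sqrt_sq (norm_nonneg _), e1]
  rw [h7]
  apply Real.sqrt_le_sqrt
  calc 2 * (B + ∑ i, b i) * V b (x t) = A * V b (x t) := by rw [hA]
    _ ≤ A * (Real.exp (ρ * T) * Real.exp (-(ρ * t)) * V b (x 0)) := by gcongr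
    _ ≤ A * (Real.exp (ρ * T) * Real.exp (-(ρ * t)) * (W * ‖x 0 - b‖ ^ 2)) := by gcongr
    _ = _ := by ring

end

/-- **The global attractor conjecture**, with an exponential rate. -/
theorem gac {G : Network d} {k : (Fin d → ℕ) × (Fin d → ℕ) → ℝ}
    (hk : ∀ r ∈ G.reactions, 0 < k r) {a : Fin d → ℝ} (h : G.ComplexBalanced k a) :
    G.WeaklyReversible ∧ ∀ c : Fin d → ℝ, (∀ i, 0 < c i) →
      ∃ b ∈ G.posClass c, G.ComplexBalanced k b ∧
        (∀ x ∈ G.posClass c, G.field k x = 0 ↔ x = b) ∧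
        ∃ ρ > 0, ∀ Q ⊆ G.posClass c, IsCompact Q →
          ∃ C, ∀ x, IsGlobalSolution (G.field k) x → x 0 ∈ Q →
            ∀ t ≥ 0, ‖x t - b‖ ≤ C * Real.exp (-(ρ * t)) * ‖x 0 - b‖ := by
  refine ⟨weaklyReversible hk h, fun c hc => ?_⟩
  obtain ⟨b, hb, hbb⟩ := exists_balanced hk h hc
  refine ⟨b, hb, hbb, fun x hx => ⟨fun h0 => ?_, fun h0 => ?_⟩, exp_convergence hk hbb hb hc⟩
  · refine unique_eq hk hbb hx.2 ?_ h0
    have h4 : x - b = (x - c) - (b - c) := by abel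
    rw [h4]
    exact G.stoich.sub_mem hx.1 hb.1
  · rw [h0]
    exact field_eq_zero hbb

end Vale.Agent.P072.H15
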