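import Vale.Agent.P072.H15.Lyap

/-! # Quantitative estimates for the Horn-Jackson function -/

open Set Filter Topology

namespace Vale.Agent.P072.H15

variable {d : ℕ}

lemma h_lower {x b : ℝ} (hx : 0 < x) (hb : 0 < b) :
    (Real.sqrt x - Real.sqrt b) ^ 2 ≤ x * (Real.log x - Real.log b) - x + b := by
  have hx' := Real.sqrt_pos.2 hx
  have hb' := Real.sqrt_pos.2 hb
  have h1 := Real.one_sub_inv_le_log_of_pos (div_pos hx' hb')
  rw [Real.log_div hx'.ne' hb'.ne', Real.log_sqrt hx.le, Real.log_sqrt hb.le, inv_div] at h1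
  have h2 : x * (1 - Real.sqrt b / Real.sqrt x) ≤ x * (Real.log x / 2 - Real.log b / 2) :=
    mul_le_mul_of_nonneg_left h1 hx.le
  have h3 : x * (Real.sqrt b / Real.sqrt x) = Real.sqrt x * Real.sqrt b := by
    rw [mul_div_assoc', div_eq_iff hx'.ne']
    nth_rewrite 1 [← Real.mul_self_sqrt hx.le]
    ring
  have h4 := Real.sq_sqrt hx.le
  have h5 := Real.sq_sqrt hb.le
  nlinarith

lemma h_upper {x b : ℝ} (hx : 0 < x) (hb : 0 < b) :
    x * (Real.log x - Real.log b) - x + b ≤ (x - b) ^ 2 / b := by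
  have h1 := Real.log_le_sub_one_of_pos (div_pos hx hb)
  rw [Real.log_div hx.ne' hb.ne'] at h1
  have h2 := mul_le_mul_of_nonneg_left h1 hx.le
  have h3 : x * (x / b - 1) - x + b = (x - b) ^ 2 / b := by
    field_simp
    ring
  linarith

lemma h_dual {x b : ℝ} (hx : 0 < x) (hb : 0 < b) :
    0 ≤ x - b - b * (Real.log x - Real.log b) := by
  have h1 := Real.log_le_sub_one_of_pos (div_pos hx hb)
  rw [Real.log_div hx.ne' hb.ne'] at h1
  have h2 := mul_le_mul_of_nonneg_left h1 hb.le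
  have h3 : b * (x / b - 1) = x - b := by
    field_simp
  linarith

variable {b x : Fin d → ℝ}

lemma term_nonneg (hb : ∀ i, 0 < b i) (hx : ∀ i, 0 < x i) (i : Fin d) :
    0 ≤ x i * (Real.log (x i) - Real.log (b i)) - x i + b i :=
  (sq_nonneg _).trans (h_lower (hx i) (hb i))

lemma V_nonneg (hb : ∀ i, 0 < b i) (hx : ∀ i, 0 < x i) : 0 ≤ V b x :=
  Finset.sum_nonneg fun i _ => term_nonneg hb hx i

lemma term_le_V (hb : ∀ i, 0 < b i) (hx : ∀ i, 0 < x i) (i : Fin d) :
    x i * (Real.log (x i) - Real.log (b i)) - x i + b i ≤ V b x :=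
  Finset.single_le_sum (f := fun i => x i * (Real.log (x i) - Real.log (b i)) - x i + b i)
    (fun j _ => term_nonneg hb hx j) (Finset.mem_univ i)

lemma sq_le_V (hb : ∀ i, 0 < b i) (hx : ∀ i, 0 < x i) (i : Fin d) :
    (x i - b i) ^ 2 ≤ 2 * (x i + b i) * V b x := by
  have h1 := (h_lower (hx i) (hb i)).trans (term_le_V hb hx i)
  have h2 := Real.sq_sqrt (hx i).le
  have h3 := Real.sq_sqrt (hb i).le
  have h4 : (x i - b i) ^ 2 =
      (Real.sqrt (x i) + Real.sqrt (b i)) ^ 2 * (Real.sqrt (x i) - Real.sqrt (b i)) ^ 2 := by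
    rw [← mul_pow]
    congr 1
    nlinarith
  have h5 : (Real.sqrt (x i) + Real.sqrt (b i)) ^ 2 ≤ 2 * (x i + b i) := by
    nlinarith [sq_nonneg (Real.sqrt (x i) - Real.sqrt (b i))]
  have h6 : 0 ≤ V b x := V_nonneg hb hx
  rw [h4]
  have h7 : 0 ≤ x i + b i := add_nonneg (hx i).le (hb i).le
  calc _ ≤ (Real.sqrt (x i) + Real.sqrt (b i)) ^ 2 * V b x :=
        mul_le_mul_of_nonneg_left h1 (sq_nonneg _)
    _ ≤ _ := mul_le_mul_of_nonneg_right h5 h6

lemma V_le_pair (hb : ∀ i, 0 < b i) (hx : ∀ i, 0 < x i) :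
    V b x ≤ ∑ i, lr b x i * (x i - b i) := by
  refine Finset.sum_le_sum fun i _ => ?_
  have := h_dual (hx i) (hb i)
  unfold lr
  nlinarith

lemma V_upper (hb : ∀ i, 0 < b i) (hx : ∀ i, 0 < x i) :
    V b x ≤ ∑ i, (x i - b i) ^ 2 / b i :=
  Finset.sum_le_sum fun i _ => h_upper (hx i) (hb i)

lemma norm_sq_le_V (hb : ∀ i, 0 < b i) (hx : ∀ i, 0 < x i) {B : ℝ}
    (hB : ∀ i, x i + b i ≤ B) : ‖x - b‖ ≤ Real.sqrt (2 * B * V b x) := by
  refine (pi_norm_le_iff_of_nonneg (Real.sqrt_nonneg _)).2 fun i => ?_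
  rw [Pi.sub_apply, Real.norm_eq_abs]
  apply Real.abs_le_sqrt
  refine (sq_le_V hb hx i).trans ?_
  have h6 : 0 ≤ V b x := V_nonneg hb hx
  have := hB i
  gcongr

lemma eq_of_V_nonpos (hb : ∀ i, 0 < b i) (hx : ∀ i, 0 < x i) (h : V b x ≤ 0) : x = b := by
  funext i
  have h1 := sq_le_V hb hx i
  have h2 : 0 ≤ x i + b i := add_nonneg (hx i).le (hb i).le
  have h3 : (x i - b i) ^ 2 ≤ 0 := h1.trans (mul_nonpos_of_nonneg_of_nonpos (by positivity) h)
  have h4 : (x i - b i) ^ 2 = 0 := le_antisymm h3 (sq_nonneg _)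
  have h5 := (pow_eq_zero_iff (two_ne_zero)).1 h4
  linarith

lemma exp_sub_sq {a c m : ℝ} (ha : m ≤ a) (hc : m ≤ c) :
    Real.exp (2 * m) * (a - c) ^ 2 ≤ (Real.exp a - Real.exp c) ^ 2 := by
  have key : ∀ a c : ℝ, m ≤ a → m ≤ c → c ≤ a →
      Real.exp (2 * m) * (a - c) ^ 2 ≤ (Real.exp a - Real.exp c) ^ 2 := by
    intro a c ha hc h
    have h1 : (a - c) + 1 ≤ Real.exp (a - c) := Real.add_one_le_exp _
    have h2 : Real.exp a = Real.exp c * Real.exp (a - c) := by
      rw [← Real.exp_add]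
      ring_nf
    have h3 : Real.exp m ≤ Real.exp c := Real.exp_le_exp.2 hc
    have h4 : Real.exp m * (a - c) ≤ Real.exp a - Real.exp c := by
      rw [h2]
      have h5 : Real.exp m * (a - c) ≤ Real.exp c * (a - c) :=
        mul_le_mul_of_nonneg_right h3 (sub_nonneg.2 h)
      have h6 : Real.exp c * ((a - c) + 1) ≤ Real.exp c * Real.exp (a - c) :=
        mul_le_mul_of_nonneg_left h1 (Real.exp_pos _).le
      nlinarith
    have h5 : Real.exp (2 * m) * (a - c) ^ 2 = (Real.exp m * (a - c)) ^ 2 := by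
      rw [mul_pow, ← Real.exp_nat_mul]
      norm_num
    rw [h5]
    have h6 : 0 ≤ Real.exp m * (a - c) := mul_nonneg (Real.exp_pos _).le (sub_nonneg.2 h)
    exact pow_le_pow_left₀ h6 h4 2
  rcases le_total c a with h | h
  · exact key a c ha hc h
  · have := key c a hc ha h
    nlinarith [this]

/-- Coercivity of the dissipation on compact parts of a positive class. -/
theorem D_ge {G : Network d} {k : (Fin d → ℕ) × (Fin d → ℕ) → ℝ}
    (hk : ∀ r ∈ G.reactions, 0 < k r) (h : G.ComplexBalanced k b) {κ B : ℝ} (hκ : 0 < κ) :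
    ∃ ρ > 0, ∀ x : Fin d → ℝ, (∀ i, κ ≤ x i ∧ x i ≤ B) → x - b ∈ G.stoich →
      ρ * V b x ≤ D G k b x := by
  obtain ⟨η, hη, hlarge⟩ := exists_reaction_large G 1
  -- lower bound of the fluxes
  obtain ⟨f0, hf0, hf⟩ : ∃ f0 > 0, ∀ r ∈ G.reactions, f0 ≤ flux k r b := by
    by_cases hne : G.reactions.Nonempty
    · obtain ⟨r0, hr0, hmin⟩ := Finset.exists_min_image G.reactions (fun r => flux k r b) hne
      exact ⟨flux k r0 b, flux_pos (hk r0 hr0) h.1, hmin⟩
    · exact ⟨1, one_pos, fun r hr => absurd ⟨r, hr⟩ hne⟩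
  set L : ℝ := |Real.log κ| + |Real.log B| + ∑ i, |Real.log (b i)| with hL
  set Q : ℝ := ∑ y ∈ G.complexes, ∑ i, (y i : ℝ) with hQ
  set C : ℝ := 2 * (|B| + ∑ i, b i) + 1 with hC
  have hbs : 0 ≤ ∑ i, b i := Finset.sum_nonneg fun i _ => (h.1 i).le
  have hC0 : 0 < C := by
    have := abs_nonneg B
    rw [hC]
    linarith
  refine ⟨f0 * Real.exp (-(L * Q)) * (η ^ 2 / C), by positivity, fun x hx hxb => ?_⟩
  have hpos : ∀ i, 0 < x i := fun i => hκ.trans_le (hx i).1
  have hV := V_nonneg h.1 hpos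
  rcases hV.eq_or_lt with hV0 | hV0
  · rw [← hV0, mul_zero]
    exact D_nonneg hk h hpos
  have hpair := V_le_pair h.1 hpos
  set S : ℝ := ∑ i, lr b x i * (x i - b i) with hS
  have hS0 : 0 < S := hV0.trans_le hpair
  clear_value S
  have hvne : x - b ≠ 0 := by
    intro h0
    have : S = 0 := by
      rw [hS]
      refine Finset.sum_eq_zero fun i _ => ?_
      have := congrFun h0 i
      rw [Pi.sub_apply, Pi.zero_apply] at this
      rw [this, mul_zero]
    linarith
  have hn : 0 < ‖x - b‖ := norm_pos_iff.2 hvne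
  have hnorm : ‖x - b‖ ≤ Real.sqrt (C * V b x) := by
    have h1 := norm_sq_le_V h.1 hpos (B := |B| + ∑ i, b i) (fun i => by
      have h2 := (hx i).2.trans (le_abs_self B)
      have h3 := Finset.single_le_sum (f := b) (fun j _ => (h.1 j).le) (Finset.mem_univ i)
      linarith)
    refine h1.trans (Real.sqrt_le_sqrt ?_)
    refine mul_le_mul_of_nonneg_right ?_ hV
    rw [hC]
    linarith
  obtain ⟨r, hr, hbig⟩ := hlarge ((‖x - b‖)⁻¹ • (x - b)) (G.stoich.smul_mem _ hxb) (fun i => by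
      rw [Pi.smul_apply, smul_eq_mul, abs_mul, abs_inv, abs_norm, inv_mul_le_iff₀ hn, mul_one]
      exact norm_le_pi_norm (x - b) i)
    (fun i => ‖x - b‖ / (2 * S) * lr b x i) (by
      have : ∑ i, ‖x - b‖ / (2 * S) * lr b x i * ((‖x - b‖)⁻¹ • (x - b)) i = 1 / 2 := by
        have h1 : ∀ i, ‖x - b‖ / (2 * S) * lr b x i * ((‖x - b‖)⁻¹ • (x - b)) i =
            1 / (2 * S) * (lr b x i * (x i - b i)) := by
          intro i
          rw [Pi.smul_apply, smul_eq_mul, Pi.sub_apply]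
          field_simp
        simp only [h1]
        rw [← Finset.mul_sum, ← hS]
        field_simp
      rw [this])
  -- the pairing with the reaction vector
  have hdot : ∑ i, ‖x - b‖ / (2 * S) * lr b x i * ((r.2 i : ℝ) - (r.1 i : ℝ)) =
      ‖x - b‖ / (2 * S) * (dot r.2 (lr b x) - dot r.1 (lr b x)) := by
    have h1 : dot r.2 (lr b x) - dot r.1 (lr b x) =
        ∑ i, lr b x i * ((r.2 i : ℝ) - (r.1 i : ℝ)) := by
      unfold dot
      rw [← Finset.sum_sub_distrib]
      refine Finset.sum_congr rfl fun i _ => ?_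
      ring
    rw [h1, Finset.mul_sum]
    refine Finset.sum_congr rfl fun i _ => ?_
    ring
  rw [hdot, abs_mul, abs_of_pos (by positivity)] at hbig
  set u := dot r.2 (lr b x) - dot r.1 (lr b x) with hu
  have hu1 : 2 * η * S ≤ ‖x - b‖ * |u| := by
    have := (le_div_iff₀ (by positivity : (0 : ℝ) < 2 * S)).1
      (hbig.trans_eq (by ring : ‖x - b‖ / (2 * S) * |u| = ‖x - b‖ * |u| / (2 * S)))
    linarith
  have hu2 : 4 * (η ^ 2 / C) * V b x ≤ u ^ 2 := by
    have h1 : 2 * η * V b x ≤ Real.sqrt (C * V b x) * |u| := by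
      have h2 : 2 * η * V b x ≤ 2 * η * S := by gcongr
      have h3 : ‖x - b‖ * |u| ≤ Real.sqrt (C * V b x) * |u| := by gcongr
      linarith
    have h4 : (2 * η * V b x) ^ 2 ≤ (Real.sqrt (C * V b x) * |u|) ^ 2 := by
      gcongr
    rw [mul_pow (Real.sqrt _), Real.sq_sqrt (by positivity), sq_abs] at h4
    have h5 : V b x * (4 * η ^ 2 * V b x) ≤ V b x * (C * u ^ 2) := by nlinarith
    have h6 := le_of_mul_le_mul_left h5 hV0
    have h7 : 4 * (η ^ 2 / C) * V b x = (4 * η ^ 2 * V b x) / C := by ring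
    rw [h7, div_le_iff₀ hC0]
    linarith
  -- the exponentials
  have hlr : ∀ i, |lr b x i| ≤ L := by
    intro i
    have h1 : |Real.log (x i)| ≤ |Real.log κ| + |Real.log B| := by
      have h2 := Real.log_le_log hκ (hx i).1
      have h3 := Real.log_le_log (hpos i) (hx i).2
      rw [abs_le]
      constructor
      · have := neg_abs_le (Real.log κ)
        have := abs_nonneg (Real.log B)
        linarith
      · have := le_abs_self (Real.log B)
        have := abs_nonneg (Real.log κ)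
        linarith
    have h4 := Finset.single_le_sum (f := fun i => |Real.log (b i)|)
      (fun j _ => abs_nonneg _) (Finset.mem_univ i)
    unfold lr
    refine (abs_sub _ _).trans ?_
    rw [hL]
    linarith
  have hL0 : 0 ≤ L := by
    rw [hL]
    positivity
  have hdotle : ∀ y ∈ G.complexes, -(L * Q) ≤ dot y (lr b x) := by
    intro y hy
    have h1 : |dot y (lr b x)| ≤ L * Q := by
      unfold dot
      refine (Finset.abs_sum_le_sum_abs _ _).trans ?_
      have h2 : ∑ i, |(y i : ℝ) * lr b x i| ≤ ∑ i, L * (y i : ℝ) := by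
        refine Finset.sum_le_sum fun i _ => ?_
        rw [abs_mul, abs_of_nonneg (Nat.cast_nonneg _), mul_comm]
        exact mul_le_mul_of_nonneg_right (hlr i) (Nat.cast_nonneg _)
      refine h2.trans ?_
      rw [← Finset.mul_sum]
      refine mul_le_mul_of_nonneg_left ?_ hL0
      exact Finset.single_le_sum (f := fun y : Fin d → ℕ => ∑ i, (y i : ℝ))
        (fun z _ => Finset.sum_nonneg fun i _ => Nat.cast_nonneg _) hy
    exact (abs_le.1 h1).1
  have hexp : Real.exp (-(L * Q)) * (u ^ 2 / 4) ≤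
      (Real.exp (dot r.2 (lr b x) / 2) - Real.exp (dot r.1 (lr b x) / 2)) ^ 2 := by
    have h1 := exp_sub_sq (a := dot r.2 (lr b x) / 2) (c := dot r.1 (lr b x) / 2)
      (m := -(L * Q) / 2) (by
        have := hdotle _ (G.target_mem r hr)
        linarith) (by
        have := hdotle _ (G.source_mem r hr)
        linarith)
    refine le_trans (le_of_eq ?_) h1
    rw [hu]
    congr 1
    · congr 1
      ring
    · ring
  have hterm : flux k r b *
      (Real.exp (dot r.2 (lr b x) / 2) - Real.exp (dot r.1 (lr b x) / 2)) ^ 2 ≤ D G k b x := by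
    refine le_trans ?_ (D_gap hk h hpos)
    exact Finset.single_le_sum (f := fun r => flux k r b *
      (Real.exp (dot r.2 (lr b x) / 2) - Real.exp (dot r.1 (lr b x) / 2)) ^ 2)
      (fun s hs => mul_nonneg (flux_pos (hk s hs) h.1).le (sq_nonneg _)) hr
  refine le_trans ?_ hterm
  have hfr := hf r hr
  calc f0 * Real.exp (-(L * Q)) * (η ^ 2 / C) * V b x
      = f0 * (Real.exp (-(L * Q)) * ((4 * (η ^ 2 / C) * V b x) / 4)) := by ring
    _ ≤ f0 * (Real.exp (-(L * Q)) * (u ^ 2 / 4)) := by gcongr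
    _ ≤ flux k r b * (Real.exp (-(L * Q)) * (u ^ 2 / 4)) := by gcongr
    _ ≤ _ := by
        have := (flux_pos (hk r hr) h.1).le
        gcongr

end Vale.Agent.P072.H15
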